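import Mathlib

/-!
P080: slopes of a continuous function with second differences of size `M ‖d‖` (Zygmund class).
Such a function is within `3 * 2^n * M * r` of an affine one on every ball of radius `r`; the
slopes change by a constant from one scale to the double one, hence logarithmically in general.
Also the maximum-principle form of the interpolation lemma on an interval.
-/

namespace Vale.Agent.P080.C1

open Set Metric Module
open scoped RealInnerProductSpace

/-- If all centred second differences are at most `D`, then `φ` is within `D` of its secant. -/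
theorem abs_sub_secant_le {φ : ℝ → ℝ} {a b D : ℝ} (hab : a < b)
    (hc : ContinuousOn φ (Icc a b))
    (hd : ∀ t s : ℝ, 0 ≤ s → a ≤ t - s → t + s ≤ b →
      |φ (t + s) + φ (t - s) - 2 * φ t| ≤ D)
    {t : ℝ} (ht : t ∈ Icc a b) :
    |φ t - ((b - t) * φ a + (t - a) * φ b) / (b - a)| ≤ D := by
  have key : ∀ σ : ℝ, |σ| = 1 → σ * (φ t - ((b - t) * φ a + (t - a) * φ b) / (b - a)) ≤ D := by
    intro σ hσ
    set ψ : ℝ → ℝ := fun t => σ * (φ t - ((b - t) * φ a + (t - a) * φ b) / (b - a)) with hψ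
    have hψc : ContinuousOn ψ (Icc a b) :=
      continuousOn_const.mul (hc.sub (by fun_prop))
    obtain ⟨x, hx, hmax⟩ := isCompact_Icc.exists_isMaxOn (nonempty_Icc.2 hab.le) hψc
    have hba : b - a ≠ 0 := (sub_pos.2 hab).ne'
    have ha0 : ψ a = 0 := by simp [hψ, hba]
    have hb0 : ψ b = 0 := by simp [hψ, hba]
    have htx : ψ t ≤ ψ x := hmax ht
    set s := min (x - a) (b - x)
    have hs : 0 ≤ s := le_min (sub_nonneg.2 hx.1) (sub_nonneg.2 hx.2)
    have h1 : s ≤ x - a := min_le_left _ _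
    have h2 : s ≤ b - x := min_le_right _ _
    have hdd := hd x s hs (by linarith) (by linarith)
    have e : ψ (x + s) + ψ (x - s) - 2 * ψ x = σ * (φ (x + s) + φ (x - s) - 2 * φ x) := by
      simp only [hψ]; field_simp; ring
    have habs : |ψ (x + s) + ψ (x - s) - 2 * ψ x| ≤ D := by rw [e, abs_mul, hσ, one_mul]; exact hdd
    have hle := (abs_le.1 habs).1
    rcases min_choice (x - a) (b - x) with hm | hm <;> change s = _ at hm
    · have : ψ (x + s) ≤ ψ x := hmax ⟨by linarith [hx.1], by linarith⟩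
      have : x - s = a := by rw [hm]; ring
      rw [this, ha0] at hle
      change ψ t ≤ D
      linarith
    · have : ψ (x - s) ≤ ψ x := hmax ⟨by linarith, by linarith [hx.2]⟩
      have : x + s = b := by rw [hm]; ring
      rw [this, hb0] at hle
      change ψ t ≤ D
      linarith
  exact abs_le'.2 ⟨by simpa using key 1 (by norm_num), by simpa using key (-1) (by norm_num)⟩

/-- The modulus `s (1 + log (r / s))^3` is at most `27 r` for `s ≤ r`. -/
theorem mul_log_cube_le {r s : ℝ} (hs : 0 < s) (hsr : s ≤ r) :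
    s * (1 + Real.log (r / s)) ^ 3 ≤ 27 * r := by
  have hu : 1 ≤ r / s := (one_le_div hs).2 hsr
  have hu0 : 0 < r / s := one_pos.trans_le hu
  set v := (r / s) ^ ((1 : ℝ) / 3) with hv
  have hv0 : 0 < v := Real.rpow_pos_of_pos hu0 _
  have h3 : v ^ 3 = r / s := by
    rw [hv, ← Real.rpow_natCast, ← Real.rpow_mul hu0.le]; norm_num
  have hlog : Real.log (r / s) = 3 * Real.log v := by rw [← h3, Real.log_pow]; norm_num
  have hl : 1 + Real.log (r / s) ≤ 3 * v := by
    rw [hlog]; linarith [Real.log_le_sub_one_of_pos hv0]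
  have h0 : 0 ≤ 1 + Real.log (r / s) := by linarith [Real.log_nonneg hu]
  calc s * (1 + Real.log (r / s)) ^ 3 ≤ s * (3 * v) ^ 3 := by gcongr
    _ = 27 * r := by rw [mul_pow, h3]; field_simp; ring

variable {F : Type*} [NormedAddCommGroup F] [InnerProductSpace ℝ F]

/-- `f` is within `K * r` of slope `g` on the ball of radius `r` about `x`. -/
def NearSlope (f : F → ℝ) (x : F) (r K : ℝ) (g : F) : Prop :=
  ∀ z : F, ‖z‖ ≤ r → |f (x + z) - f x - ⟪g, z⟫| ≤ K * r

/-- The second differences of `f` inside `S` are at most `M ‖d‖`. -/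
def SecondDiff (f : F → ℝ) (S : Set F) (M : ℝ) : Prop :=
  ∀ x d : F, x ∈ S → x + d ∈ S → x - d ∈ S → |f (x + d) + f (x - d) - 2 * f x| ≤ M * ‖d‖

/-- A bound on a linear form on a ball bounds its vector. -/
theorem norm_le_of_inner_le {v : F} {r c : ℝ} (hr : 0 < r)
    (h : ∀ z : F, ‖z‖ ≤ r → ⟪v, z⟫ ≤ c * r) : ‖v‖ ≤ c := by
  rcases eq_or_ne v 0 with rfl | hv
  · have := h 0 (by simp [hr.le])
    simp only [inner_zero_left] at this
    simpa using nonneg_of_mul_nonneg_left this hr
  · have hv' : ‖v‖ ≠ 0 := norm_ne_zero_iff.2 hv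
    have := h ((r / ‖v‖) • v) (by
      rw [norm_smul, Real.norm_eq_abs, abs_div, abs_norm, abs_of_pos hr, div_mul_cancel₀ _ hv'])
    rw [real_inner_smul_right, real_inner_self_eq_norm_mul_norm] at this
    have e : r / ‖v‖ * (‖v‖ * ‖v‖) = ‖v‖ * r := by field_simp
    rw [e] at this
    exact le_of_mul_le_mul_right this hr

/-- Slopes at two scales about one point. -/
theorem NearSlope.norm_sub_le {f : F → ℝ} {x g g' : F} {r r' K : ℝ} (hr : 0 < r) (hrr : r ≤ r')
    (h : NearSlope f x r K g) (h' : NearSlope f x r' K g') :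
    ‖g - g'‖ ≤ K * (1 + r' / r) := by
  refine norm_le_of_inner_le hr fun z hz => ?_
  have h1 := abs_le.1 (h z hz)
  have h2 := abs_le.1 (h' z (hz.trans hrr))
  rw [inner_sub_left]
  have e : K * (1 + r' / r) * r = K * r + K * r' := by field_simp
  linarith [h1.1, h2.2]

/-- Slopes at neighbouring points. -/
theorem NearSlope.norm_sub_le_neighbour {f : F → ℝ} {x w g g' : F} {r K : ℝ} (hr : 0 < r)
    (hw : ‖w‖ ≤ r) (h : NearSlope f x (2 * r) K g) (h' : NearSlope f (x + w) r K g') :
    ‖g' - g‖ ≤ 5 * K := by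
  refine norm_le_of_inner_le hr fun z hz => ?_
  have h1 := abs_le.1 (h' z hz)
  have h2 := abs_le.1 (h w (by linarith))
  have h3 := abs_le.1 (h (w + z) (by linarith [norm_add_le w z]))
  rw [inner_add_right, ← add_assoc] at h3
  rw [inner_sub_left]
  linarith [h1.1, h2.1, h3.2]

/-- Chaining the slopes over dyadic scales. -/
theorem norm_sub_le_log {f : F → ℝ} {x : F} {g : ℝ → F} {r R K : ℝ} (hr : 0 < r) (hrR : r ≤ R)
    (h : ∀ ρ ∈ Icc r R, NearSlope f x ρ K (g ρ)) :
    ‖g r - g R‖ ≤ 6 * K * (1 + Real.log (R / r)) := by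
  have hK : 0 ≤ K := by
    have := (abs_nonneg _).trans (h r ⟨le_rfl, hrR⟩ 0 (by simp [hr.le]))
    exact nonneg_of_mul_nonneg_left this hr
  have chain : ∀ k : ℕ, ∀ ρ ∈ Icc r R, ρ ≤ 2 ^ (k + 1) * r →
      ‖g r - g ρ‖ ≤ 3 * K * (k + 1) := by
    intro k
    induction k with
    | zero =>
      intro ρ hρ h2
      refine ((h r ⟨le_rfl, hrR⟩).norm_sub_le hr hρ.1 (h ρ hρ)).trans ?_
      have : ρ / r ≤ 2 := (div_le_iff₀ hr).2 (by simpa using h2)
      simpa using (show K * (1 + ρ / r) ≤ K * 3 by gcongr; linarith).trans_eq (mul_comm _ _)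
    | succ k ih =>
      intro ρ hρ h2
      by_cases hh : ρ ≤ 2 ^ (k + 1) * r
      · exact (ih ρ hρ hh).trans (by push_cast; nlinarith)
      · push Not at hh
        have h2' : (2 : ℝ) ≤ 2 ^ (k + 1) := by
          simpa using pow_le_pow_right₀ (one_le_two (α := ℝ)) (Nat.le_add_left 1 k)
        have hm : ρ / 2 ∈ Icc r R := ⟨by nlinarith, by linarith [hρ.2, hρ.1]⟩
        have h3 := ih (ρ / 2) hm (by rw [pow_succ] at h2; linarith)
        have h4 := (h (ρ / 2) hm).norm_sub_le (by linarith [hm.1]) (by linarith [hρ.1]) (h ρ hρ)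
        have e : ρ / (ρ / 2) = 2 := by field_simp [(hr.trans_le hρ.1).ne']
        rw [e] at h4
        push_cast
        linarith [norm_sub_le_norm_sub_add_norm_sub (g r) (g (ρ / 2)) (g ρ)]
  set k := ⌊Real.logb 2 (R / r)⌋₊
  have hu : 1 ≤ R / r := (one_le_div hr).2 hrR
  have hk : R ≤ 2 ^ (k + 1) * r := by
    rw [← div_le_iff₀ hr, ← Real.rpow_natCast, ← Real.logb_le_iff_le_rpow one_lt_two
      (one_pos.trans_le hu)]
    push_cast
    exact (Nat.lt_floor_add_one _).le
  refine (chain k R ⟨hrR, le_rfl⟩ hk).trans ?_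
  have hl2 : (1 / 2 : ℝ) ≤ Real.log 2 := by linarith [Real.log_two_gt_d9]
  have hL := Real.log_nonneg hu
  have : (k : ℝ) ≤ 2 * Real.log (R / r) := by
    refine (Nat.floor_le (Real.logb_nonneg one_lt_two hu)).trans ?_
    rw [Real.logb, div_le_iff₀ (by linarith)]
    nlinarith
  nlinarith

variable [FiniteDimensional ℝ F]

/-- The slope lemma. -/
theorem exists_nearSlope {f : F → ℝ} {S : Set F} {M : ℝ} (hM : 0 ≤ M) (hc : ContinuousOn f S)
    (hd : SecondDiff f S M) {x : F} {r : ℝ} (hr : 0 < r)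
    (hball : closedBall x (2 ^ finrank ℝ F * r) ⊆ S) :
    ∃ g, NearSlope f x r (3 * 2 ^ finrank ℝ F * M) g := by
  classical
  let b := stdOrthonormalBasis ℝ F
  set n := finrank ℝ F
  set T : ℝ := 2 ^ n * r with hT
  have hT0 : 0 < T := by positivity
  set g : F := ∑ i, ((f (x + T • b i) - f (x - T • b i)) / (2 * T)) • b i with hg
  refine ⟨g, ?_⟩
  have mem : ∀ {z : F}, ‖z‖ ≤ T → x + z ∈ S := fun {z} hz =>
    hball (mem_closedBall.2 (by simpa [dist_eq_norm] using hz))
  set h : F → ℝ := fun z => f (x + z) - f x - ⟪g, z⟫ with hh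
  have h00 : h 0 = 0 := by simp [hh]
  have hsd : ∀ {z d : F}, ‖z‖ ≤ T → ‖z + d‖ ≤ T → ‖z - d‖ ≤ T →
      |h (z + d) + h (z - d) - 2 * h z| ≤ M * ‖d‖ := by
    intro z d h1 h2 h3
    have := hd (x + z) d (mem h1) (by rw [add_assoc]; exact mem h2)
      (by rw [add_sub_assoc]; exact mem h3)
    rw [add_assoc, add_sub_assoc] at this
    simp only [hh, inner_add_right, inner_sub_right, ← add_assoc, ← add_sub_assoc] at this ⊢
    rw [abs_le] at this ⊢
    constructor <;> linarith
  have nb : ∀ i (t : ℝ), ‖t • b i‖ = |t| := fun i t => by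
    rw [norm_smul, b.orthonormal.1 i, mul_one, Real.norm_eq_abs]
  have axisB : ∀ i, ∀ t : ℝ, |t| ≤ T → |h (t • b i)| ≤ 2 * (M * T) := by
    intro i t ht
    have hgi : ⟪g, b i⟫ = (f (x + T • b i) - f (x - T • b i)) / (2 * T) := by
      rw [hg, sum_inner]
      simp [real_inner_smul_left, b.inner_eq_ite]
    have hsym : h ((-T) • b i) = h (T • b i) := by
      simp only [hh, real_inner_smul_right, hgi, neg_smul, ← sub_eq_add_neg, inner_neg_right]
      field_simp; ring
    have hA := hsd (z := 0) (d := T • b i) (by simp [hT0.le]) (by simp [nb, abs_of_pos hT0])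
      (by simp [nb, abs_of_pos hT0])
    rw [zero_add, zero_sub, ← neg_smul, hsym, h00, nb, abs_of_pos hT0] at hA
    have hcφ : ContinuousOn (fun t : ℝ => h (t • b i)) (Icc (-T) T) := by
      refine ((hc.comp (by fun_prop) ?_).sub continuousOn_const).sub (by fun_prop)
      intro s hs
      exact mem (by rw [nb]; exact abs_le.2 hs)
    have hsec := abs_sub_secant_le (by linarith) hcφ (D := M * T) (fun a s hs h1 h2 => by
      have h3 := hsd (z := a • b i) (d := s • b i) (by rw [nb]; exact abs_le.2 ⟨by linarith, by linarith⟩)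
        (by rw [← add_smul, nb]; exact abs_le.2 ⟨by linarith, h2⟩)
        (by rw [← sub_smul, nb]; exact abs_le.2 ⟨h1, by linarith⟩)
      rw [← add_smul, ← sub_smul, nb, abs_of_nonneg hs] at h3
      exact h3.trans (by gcongr; linarith)) (t := t) (abs_le.1 ht)
    rw [hsym] at hsec
    have e : ((T - t) * h (T • b i) + (t - -T) * h (T • b i)) / (T - -T) = h (T • b i) := by
      field_simp; ring
    rw [e] at hsec
    have hA' := abs_le.1 hA
    have hs' := abs_le.1 hsec
    have hMT : 0 ≤ M * T := mul_nonneg hM hT0.le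
    exact abs_le.2 ⟨by linarith, by linarith⟩
  have main : ∀ s : Finset (Fin (finrank ℝ F)), ∀ c : Fin (finrank ℝ F) → ℝ,
      (∀ i ∈ s, |c i| * 2 ^ s.card ≤ T) → |h (∑ i ∈ s, c i • b i)| ≤ 3 * (M * T) := by
    intro s
    induction s using Finset.induction_on with
    | empty =>
      intro c _
      simp only [Finset.sum_empty, h00, abs_zero]
      positivity
    | insert a s ha ih =>
      intro c hcs
      rw [Finset.card_insert_of_notMem ha, pow_succ] at hcs
      have hca := hcs a (Finset.mem_insert_self _ _)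
      have hp1 : (1 : ℝ) ≤ 2 ^ s.card := one_le_pow₀ one_le_two
      have hca2 : |2 * c a| ≤ T := by
        rw [abs_mul, abs_two]; nlinarith [abs_nonneg (c a)]
      have h2s : ∀ i ∈ s, |2 * c i| * 2 ^ s.card ≤ T := fun i hi => by
        have := hcs i (Finset.mem_insert_of_mem hi)
        rw [abs_mul, abs_two]; linarith
      set A := ∑ i ∈ s, c i • b i with hA
      set B := c a • b a
      have hA2 : A + A = ∑ i ∈ s, (2 * c i) • b i := by
        rw [hA, ← Finset.sum_add_distrib]; simp_rw [← add_smul, two_mul]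
      have hB2 : B + B = (2 * c a) • b a := by rw [← add_smul, two_mul]
      have hnA : ‖A + A‖ ≤ T := by
        rw [hA2]
        refine (norm_sum_le _ _).trans ?_
        simp_rw [nb]
        have : ∀ i ∈ s, |2 * c i| ≤ T / 2 ^ s.card := fun i hi =>
          (le_div_iff₀ (by positivity)).2 (h2s i hi)
        refine (Finset.sum_le_card_nsmul _ _ _ this).trans ?_
        rw [nsmul_eq_mul, mul_div_assoc', div_le_iff₀ (by positivity), mul_comm T]
        gcongr
        exact_mod_cast Nat.lt_two_pow_self.le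
      have hnB : ‖B + B‖ ≤ T := by rw [hB2, nb]; exact hca2
      have eA : A + B + (A - B) = A + A := by abel
      have eB : A + B - (A - B) = B + B := by abel
      have hAn : ‖A + A‖ = 2 * ‖A‖ := by
        rw [← two_smul ℝ A, norm_smul, Real.norm_two]
      have hBn : ‖B + B‖ = 2 * ‖B‖ := by
        rw [← two_smul ℝ B, norm_smul, Real.norm_two]
      have h3 := hsd (z := A + B) (d := A - B) (by linarith [norm_add_le A B])
        (by rw [eA]; exact hnA) (by rw [eB]; exact hnB)
      rw [eA, eB, hA2, hB2] at h3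
      have hs3 := abs_le.1 (ih (fun i => 2 * c i) h2s)
      have ha2 := abs_le.1 (axisB a (2 * c a) hca2)
      have hd' : M * ‖A - B‖ ≤ M * T := by
        gcongr; linarith [norm_sub_le A B]
      have h3' := abs_le.1 (h3.trans hd')
      rw [Finset.sum_insert ha, add_comm, ← hA]
      exact abs_le.2 ⟨by linarith, by linarith⟩
  intro z hz
  have h4 := main Finset.univ (fun i => b.repr z i) (fun i _ => by
    have : |b.repr z i| ≤ ‖z‖ := by
      rw [b.repr_apply_apply]
      simpa [b.orthonormal.1 i] using abs_real_inner_le_norm (b i) z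
    rw [Finset.card_univ, Fintype.card_fin, hT]
    nlinarith [pow_pos (two_pos : (0 : ℝ) < 2) n])
  rw [b.sum_repr] at h4
  calc |f (x + z) - f x - ⟪g, z⟫| = |h z| := rfl
    _ ≤ _ := h4
    _ = _ := by ring

open scoped Classical in
/-- A chosen slope of `f` at the point `x` and scale `r` (zero if none exists). -/
noncomputable def sliceSlope (f : F → ℝ) (K : ℝ) (x : F) (r : ℝ) : F :=
  if h : ∃ g, NearSlope f x r K g then h.choose else 0

theorem sliceSlope_spec {f : F → ℝ} {S : Set F} {M : ℝ} (hM : 0 ≤ M) (hc : ContinuousOn f S)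
    (hd : SecondDiff f S M) {x : F} {r : ℝ} (hr : 0 < r)
    (hball : closedBall x (2 ^ finrank ℝ F * r) ⊆ S) :
    NearSlope f x r (3 * 2 ^ finrank ℝ F * M)
      (sliceSlope f (3 * 2 ^ finrank ℝ F * M) x r) := by
  rw [sliceSlope, dif_pos (exists_nearSlope hM hc hd hr hball)]
  exact (exists_nearSlope hM hc hd hr hball).choose_spec

section Growth

variable {f : F → ℝ} {S : Set F} {M : ℝ} {x z : F} {r R : ℝ}

/-- Logarithmic change of the slope with the scale. -/
theorem sliceSlope_scale (hM : 0 ≤ M) (hc : ContinuousOn f S) (hd : SecondDiff f S M)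
    (hr : 0 < r) (hrR : r ≤ R) (hball : closedBall x (2 ^ finrank ℝ F * R) ⊆ S) :
    ‖sliceSlope f (3 * 2 ^ finrank ℝ F * M) x r - sliceSlope f (3 * 2 ^ finrank ℝ F * M) x R‖ ≤
      6 * (3 * 2 ^ finrank ℝ F * M) * (1 + Real.log (R / r)) :=
  norm_sub_le_log hr hrR fun ρ hρ => sliceSlope_spec hM hc hd (hr.trans_le hρ.1)
    ((closedBall_subset_closedBall (by gcongr; exact hρ.2)).trans hball)

/-- Growth away from the scale of the slope. -/
theorem sliceSlope_growth (hM : 0 ≤ M) (hc : ContinuousOn f S) (hd : SecondDiff f S M)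
    (hr : 0 < r) (hrR : r ≤ R) (hz : ‖z‖ ≤ R)
    (hball : closedBall x (2 ^ finrank ℝ F * R) ⊆ S) :
    |f (x + z) - f x - ⟪sliceSlope f (3 * 2 ^ finrank ℝ F * M) x r, z⟫| ≤
      7 * (3 * 2 ^ finrank ℝ F * M) * R * (1 + Real.log (R / r)) := by
  set K := 3 * 2 ^ finrank ℝ F * M
  have h1 := sliceSlope_spec hM hc hd (hr.trans_le hrR) hball z hz
  have h2 := abs_real_inner_le_norm (sliceSlope f K x r - sliceSlope f K x R) z
  have h3 := sliceSlope_scale hM hc hd hr hrR hball
  have hL := Real.log_nonneg ((one_le_div hr).2 hrR)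
  rw [inner_sub_left] at h2
  have h4 : ‖sliceSlope f K x r - sliceSlope f K x R‖ * ‖z‖ ≤
      6 * K * (1 + Real.log (R / r)) * R :=
    mul_le_mul h3 hz (norm_nonneg _) ((norm_nonneg _).trans h3)
  have hK : 0 ≤ K * R * Real.log (R / r) :=
    mul_nonneg (mul_nonneg (by positivity) (hr.le.trans hrR)) hL
  rw [abs_le] at h1 h2 ⊢
  constructor <;> linarith

/-- Logarithmic change of the slope between points. -/
theorem sliceSlope_neighbour (hM : 0 ≤ M) (hc : ContinuousOn f S) (hd : SecondDiff f S M)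
    (hr : 0 < r) (hrR : r ≤ R) (hz : ‖z‖ ≤ R)
    (hball : closedBall x (2 ^ (finrank ℝ F + 1) * R) ⊆ S) :
    ‖sliceSlope f (3 * 2 ^ finrank ℝ F * M) (x + z) r -
        sliceSlope f (3 * 2 ^ finrank ℝ F * M) x r‖ ≤
      23 * (3 * 2 ^ finrank ℝ F * M) * (1 + Real.log (R / r)) := by
  set K := 3 * 2 ^ finrank ℝ F * M with hKdef
  have hR : 0 < R := hr.trans_le hrR
  have hp : (1 : ℝ) ≤ 2 ^ finrank ℝ F := one_le_pow₀ one_le_two
  have hb2 : closedBall x (2 ^ finrank ℝ F * (2 * R)) ⊆ S :=
    (closedBall_subset_closedBall (le_of_eq (by ring))).trans hball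
  have hb' : closedBall (x + z) (2 ^ finrank ℝ F * R) ⊆ S := by
    refine (closedBall_subset_closedBall' ?_).trans hball
    rw [dist_eq_norm, add_sub_cancel_left, pow_succ]
    nlinarith
  have h1 := sliceSlope_scale hM hc hd hr hrR hb'
  have h2 := (sliceSlope_spec hM hc hd (mul_pos two_pos hR) hb2).norm_sub_le_neighbour hR hz
    (sliceSlope_spec hM hc hd hR hb')
  have h3 := sliceSlope_scale hM hc hd hr (hrR.trans (by linarith : R ≤ 2 * R)) hb2
  rw [← hKdef] at h1 h2 h3
  have e : Real.log (2 * R / r) = Real.log 2 + Real.log (R / r) := by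
    rw [mul_div_assoc, Real.log_mul two_ne_zero (div_pos hR hr).ne']
  have hl2 : Real.log 2 ≤ 1 := by linarith [Real.log_two_lt_d9]
  have hK : 0 ≤ K := by positivity
  have hL := Real.log_nonneg ((one_le_div hr).2 hrR)
  rw [norm_sub_rev (sliceSlope f K x r)] at h3
  rw [e] at h3
  have t1 := norm_sub_le_norm_sub_add_norm_sub (sliceSlope f K (x + z) r)
    (sliceSlope f K (x + z) R) (sliceSlope f K x r)
  have t2 := norm_sub_le_norm_sub_add_norm_sub (sliceSlope f K (x + z) R)
    (sliceSlope f K x (2 * R)) (sliceSlope f K x r)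
  nlinarith

omit [FiniteDimensional ℝ F] in
/-- Second differences on steps at most one control those on longer steps. -/
theorem secondDiff_of_short {f : F → ℝ} {M : ℝ}
    (hd : ∀ x d : F, ‖d‖ ≤ 1 → |f (x + d) + f (x - d) - 2 * f x| ≤ M * ‖d‖) (k : ℕ) :
    ∀ x d : F, ‖d‖ ≤ 2 ^ k → |f (x + d) + f (x - d) - 2 * f x| ≤ 2 ^ k * M * ‖d‖ := by
  induction k with
  | zero => intro x d h; simpa using hd x d (by simpa using h)
  | succ k ih =>
    intro x d h
    set e := (1 / 2 : ℝ) • d with he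
    have hde : d = e + e := by rw [he, ← add_smul]; norm_num
    have hn : ‖d‖ = 2 * ‖e‖ := by rw [he, norm_smul]; norm_num; ring
    have hle : ‖e‖ ≤ 2 ^ k := by rw [pow_succ] at h; linarith
    have h1 := abs_le.1 (ih (x + e) e hle)
    have h2 := abs_le.1 (ih x e hle)
    have h3 := abs_le.1 (ih (x - e) e hle)
    rw [add_sub_cancel_right, add_assoc, ← hde] at h1
    rw [sub_add_cancel, sub_sub, ← hde] at h3
    rw [hn, pow_succ]
    exact abs_le.2 ⟨by linarith, by linarith⟩

/-- Short second differences give a slope at each scale with growth `(1 + ‖z‖ / r) ^ (3 / 2)`. -/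
theorem exists_slope_growth {f : F → ℝ} {M : ℝ} (hM : 0 ≤ M) (hc : Continuous f)
    (hd : ∀ x d : F, ‖d‖ ≤ 1 → |f (x + d) + f (x - d) - 2 * f x| ≤ M * ‖d‖) (x : F) {r : ℝ}
    (hr : 0 < r) (hr1 : r ≤ 1) :
    ∃ g : F, ∀ z : F, ‖z‖ ≤ 1 → |f (x + z) - f x - ⟪g, z⟫| ≤
      42 * 4 ^ finrank ℝ F * M * r * ((1 + ‖z‖ / r) * Real.sqrt (1 + ‖z‖ / r)) := by
  set n := finrank ℝ F
  set S := closedBall x ((2 : ℝ) ^ n)
  have hM' : (0 : ℝ) ≤ 2 ^ n * M := by positivity
  have hS : SecondDiff f S (2 ^ n * M) := by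
    intro y d _ h1 h2
    refine secondDiff_of_short hd n y d ?_
    rw [mem_closedBall, dist_eq_norm] at h1 h2
    have e : (2 : ℝ) • d = (y + d - x) - (y - d - x) := by rw [two_smul]; abel
    have := norm_sub_le (y + d - x) (y - d - x)
    rw [← e, norm_smul, Real.norm_two] at this
    linarith
  refine ⟨sliceSlope f (3 * 2 ^ n * (2 ^ n * M)) x r, fun z hz => ?_⟩
  set q := ‖z‖ / r with hq
  have hq0 : 0 ≤ q := by positivity
  have hR : max r ‖z‖ ≤ r * (1 + q) := by
    rw [hq, mul_add, mul_div_cancel₀ _ hr.ne', mul_one]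
    exact max_le (by linarith [norm_nonneg z]) (by linarith)
  have hR1 : max r ‖z‖ ≤ 1 := max_le hr1 hz
  refine (sliceSlope_growth hM' hc.continuousOn hS hr (le_max_left _ _) (le_max_right _ _)
    (closedBall_subset_closedBall (by nlinarith [pow_pos (two_pos : (0 : ℝ) < 2) n]))).trans ?_
  set v := Real.sqrt (1 + q)
  have hv : 0 < v := Real.sqrt_pos.2 (by linarith)
  have hlog : 1 + Real.log (max r ‖z‖ / r) ≤ 2 * v := by
    have h1 : Real.log (max r ‖z‖ / r) ≤ Real.log (1 + q) := by
      refine Real.log_le_log (div_pos (lt_max_of_lt_left hr) hr) ?_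
      rw [div_le_iff₀ hr, mul_comm]; exact hR
    have h2 := Real.log_le_sub_one_of_pos hv
    rw [Real.log_sqrt (by linarith)] at h2
    linarith
  have h0 := Real.log_nonneg ((one_le_div hr).2 (le_max_left r ‖z‖))
  have h4 : (4 : ℝ) ^ n = 2 ^ n * 2 ^ n := by rw [← mul_pow]; norm_num
  calc 7 * (3 * 2 ^ n * (2 ^ n * M)) * max r ‖z‖ * (1 + Real.log (max r ‖z‖ / r))
      ≤ 7 * (3 * 2 ^ n * (2 ^ n * M)) * (r * (1 + q)) * (2 * v) := by gcongr
    _ = _ := by rw [h4]; ring

end Growth

end Vale.Agent.P080.C1
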