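import Vale.Agent.P080.C1.Slice.Zygmund

/-!
P080, step B5: the scalar lemmas behind the windows at all scales. The recursion
`M(r) ≤ M(2r) / 2 + c (1 + log (2 + M(2r)))` keeps `M` bounded, and second differences of size
`s (1 + log (r / s))^3` along a line keep a function affine up to `O(r)`.
-/

namespace Vale.Agent.P080.C1

open Set

/-- The bound that the logarithmic recursion keeps. -/
noncomputable def recConst (c : ℝ) : ℝ := 4 * c * (1 + Real.log (8 * c + 2)) + 1

theorem one_le_recConst {c : ℝ} (hc : 0 ≤ c) : 1 ≤ recConst c := by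
  have := Real.log_nonneg (show (1 : ℝ) ≤ 8 * c + 2 by linarith)
  rw [recConst]
  nlinarith

theorem mul_log_le {c x : ℝ} (hc : 0 ≤ c) (hx : 0 < x) :
    c * Real.log x ≤ x / 8 + c * Real.log (8 * c + 2) := by
  have hm : 0 < 8 * c + 2 := by linarith
  have h1 := Real.log_le_sub_one_of_pos (div_pos hx hm)
  rw [Real.log_div hx.ne' hm.ne'] at h1
  have h2 : c * (x / (8 * c + 2)) ≤ x / 8 := by
    rw [mul_div_assoc', div_le_iff₀ hm]
    nlinarith
  nlinarith

/-- `x ≤ m / 2 + c (1 + log (2 + m + x))` gives the same without `x` on the right. -/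
theorem half_add_log {c m x : ℝ} (hc : 0 ≤ c) (hm : 0 ≤ m) (hx : 0 ≤ x)
    (h : x ≤ m / 2 + c * (1 + Real.log (2 + m + x))) :
    x ≤ m / 2 + c * (1 + Real.log (2 + recConst c) + Real.log (2 + m)) := by
  have hC := one_le_recConst hc
  have h1 := mul_log_le hc (show 0 < 2 + m + x by linarith)
  have hx' : x ≤ m + recConst c := by
    have := mul_nonneg hc (add_nonneg zero_le_one
      (Real.log_nonneg (show (1 : ℝ) ≤ 8 * c + 2 by linarith)))
    rw [recConst]
    linarith
  have h2 : Real.log (2 + m + x) ≤ Real.log (2 + recConst c) + Real.log (2 + m) := by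
    rw [← Real.log_mul (by linarith) (by linarith)]
    exact Real.log_le_log (by linarith) (by nlinarith)
  nlinarith

/-- The recursion from the scale `2r` to `r` keeps `M` bounded on `[ρ, r₀]`. -/
theorem recursion_bound {M : ℝ → ℝ} {c B ρ r₀ : ℝ} (hc : 0 ≤ c)
    (hM : ∀ r, 0 ≤ M r) (htop : ∀ r, r₀ / 2 < r → r ≤ r₀ → M r ≤ B)
    (hrec : ∀ r, 0 < r → ρ ≤ r → r ≤ r₀ / 2 →
      M r ≤ M (2 * r) / 2 + c * (1 + Real.log (2 + M (2 * r))))
    {r : ℝ} (hr : 0 < r) (hρr : ρ ≤ r) (hr0 : r ≤ r₀) : M r ≤ max B (recConst c) := by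
  have key : ∀ k : ℕ, ∀ s, 0 < s → ρ ≤ s → s ≤ r₀ → r₀ < 2 ^ (k + 1) * s →
      M s ≤ max B (recConst c) := by
    intro k
    induction k with
    | zero =>
      intro s _ _ h2 h3
      exact (htop s (by norm_num at h3; linarith) h2).trans (le_max_left _ _)
    | succ k ih =>
      intro s hs h1 h2 h3
      by_cases hh : r₀ / 2 < s
      · exact (htop s hh h2).trans (le_max_left _ _)
      · push Not at hh
        have h4 := ih (2 * s) (by linarith) (by linarith) (by linarith)
          (by rw [pow_succ] at h3; linarith)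
        have h5 := hrec s hs h1 hh
        set C := max B (recConst c)
        have hC : recConst c ≤ C := le_max_right _ _
        have h6 : Real.log (2 + M (2 * s)) ≤ Real.log (2 + C) :=
          Real.log_le_log (by linarith [hM (2 * s)]) (by linarith)
        have h7 := mul_log_le hc (show 0 < 2 + C by linarith [one_le_recConst hc])
        have h8 := mul_le_mul_of_nonneg_left h6 hc
        rw [recConst] at hC
        have := mul_nonneg hc (add_nonneg zero_le_one
          (Real.log_nonneg (show (1 : ℝ) ≤ 8 * c + 2 by linarith)))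
        nlinarith
  obtain ⟨k, hk⟩ := pow_unbounded_of_one_lt (r₀ / r) one_lt_two
  refine key k r hr hρr hr0 ?_
  rw [div_lt_iff₀ hr] at hk
  rw [pow_succ]
  nlinarith [pow_pos (two_pos : (0 : ℝ) < 2) k]

/-- Second differences `≤ c s (1 + log (r / s))^3` on `[-r, r]`: affine within `54 c r`. -/
theorem line_affine {f : ℝ → ℝ} {c r : ℝ} (hc : 0 ≤ c) (hr : 0 < r)
    (hf : ContinuousOn f (Icc (-r) r))
    (hd : ∀ t s, 0 < s → -r ≤ t - s → t + s ≤ r →
      |f (t + s) + f (t - s) - 2 * f t| ≤ c * (s * (1 + Real.log (r / s)) ^ 3))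
    {σ : ℝ} (hσ : |σ| ≤ r) :
    |f σ - f 0 - (f r - f (-r)) / (2 * r) * σ| ≤ 54 * c * r := by
  have hD : ∀ t s, 0 ≤ s → -r ≤ t - s → t + s ≤ r →
      |f (t + s) + f (t - s) - 2 * f t| ≤ 27 * c * r := by
    intro t s hs h1 h2
    rcases hs.eq_or_lt with rfl | hs
    · simp only [add_zero, sub_zero]
      rw [show f t + f t - 2 * f t = 0 by ring, abs_zero]
      positivity
    · refine (hd t s hs h1 h2).trans ?_
      calc c * (s * (1 + Real.log (r / s)) ^ 3) ≤ c * (27 * r) :=
            mul_le_mul_of_nonneg_left (mul_log_cube_le hs (by linarith)) hc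
        _ = 27 * c * r := by ring
  have h1 := abs_sub_secant_le (by linarith) hf hD (abs_le.1 hσ)
  have h0 := abs_sub_secant_le (by linarith) hf hD (t := 0) ⟨by linarith, hr.le⟩
  have e : f σ - f 0 - (f r - f (-r)) / (2 * r) * σ =
      (f σ - ((r - σ) * f (-r) + (σ - -r) * f r) / (r - -r)) -
        (f 0 - ((r - 0) * f (-r) + (0 - -r) * f r) / (r - -r)) := by
    field_simp; ring
  rw [e]
  exact (abs_sub _ _).trans (by linarith)

end Vale.Agent.P080.C1
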