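import Mathlib

/-!
P080, step B5: the three-slice inequality of the two Hopf-Lax convexities. Three functions with
slopes `a`, `g₀`, `b` at scale `r` (error `K R (1 + log (R / r))` on the ball of radius `R`) that
satisfy both one-step convexities with step `s ≤ r` and frame `k` have
`|a + b - 2 g₀| = O(log L)` and second difference `L² s + O(r L log L)`, `L = |a - k| + |b - k|`.
-/

namespace Vale.Agent.P080.C1

open scoped RealInnerProductSpace

variable {F : Type*} [NormedAddCommGroup F] [InnerProductSpace ℝ F]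

/-- `f` has slope `g` at `P` at scale `r`, with logarithmic growth up to the scale `ρ`. -/
def LogSlope (f : F → ℝ) (P g : F) (r ρ K : ℝ) : Prop :=
  ∀ R z, r ≤ R → R ≤ ρ → ‖z‖ ≤ R →
    |f (P + z) - f P - ⟪g, z⟫| ≤ K * R * (1 + Real.log (R / r))

/-- Quadratic growth about `P`. -/
def QuadGrowth (f : F → ℝ) (P : F) (G : ℝ) : Prop :=
  ∀ z, |f (P + z) - f P| ≤ G * (1 + ‖z‖) ^ 2

/-- The convexity `2 P_s w ≤ P_{2s} w + w` in the frame `k`, at lateral position `x`. -/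
def UpConvex (fm f0 fp : F → ℝ) (Pm P0 Pp k : F) (s : ℝ) (x : F) : Prop :=
  ∀ U : ℝ, (∀ q, fp (Pp + (x + q)) - ⟪k, q⟫ - ‖q‖ ^ 2 / (4 * s) ≤ U) →
    2 * f0 (P0 + x) ≤ U + fm (Pm + x)

/-- The concavity `M_{2s} w + w ≤ 2 M_s w` in the frame `k`, at lateral position `x`. -/
def DownConcave (fm f0 fp : F → ℝ) (Pm P0 Pp k : F) (s : ℝ) (x : F) : Prop :=
  ∀ U : ℝ, (∀ q, U ≤ fm (Pm + (x + q)) - ⟪k, q⟫ + ‖q‖ ^ 2 / (4 * s)) →
    U + fp (Pp + x) ≤ 2 * f0 (P0 + x)

/-- The constant past which the quadratic cost beats the growth of a slope. -/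
noncomputable def absorbConst (K : ℝ) : ℝ := 16 * K * (1 + Real.log (32 * K + 1)) + 1

theorem one_le_absorbConst {K : ℝ} (hK : 0 ≤ K) : 1 ≤ absorbConst K := by
  have := Real.log_nonneg (show (1 : ℝ) ≤ 32 * K + 1 by linarith)
  rw [absorbConst]
  nlinarith

/-- In the middle range the quadratic cost absorbs the error of the slope. -/
theorem absorb_mid {K r L X q : ℝ} (hK : 0 ≤ K) (hr : 0 < r) (hL : 0 ≤ L) (hX : r ≤ X)
    (hq : X + r * (absorbConst K + 8 * L) < q) :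
    K * (X + q) * (1 + Real.log ((X + q) / r)) + L * q ≤ q ^ 2 / (4 * r) := by
  have hC := one_le_absorbConst hK
  have hXq : X ≤ q := by
    have : 0 ≤ r * (absorbConst K + 8 * L) := by positivity
    linarith
  have hq0 : 0 < q := by linarith
  set u := q / r with hu
  set m := 32 * K + 1 with hm
  have hm0 : 0 < m := by positivity
  have hu0 : 0 < u := div_pos hq0 hr
  have hlog : Real.log ((X + q) / r) ≤ 2 * u / m + Real.log m := by
    have h1 : Real.log ((X + q) / r) ≤ Real.log (2 * u) := by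
      refine Real.log_le_log (div_pos (by linarith) hr) ?_
      rw [hu, ← mul_div_assoc]
      gcongr
      linarith
    have h2 := Real.log_le_sub_one_of_pos (show 0 < 2 * u / m by positivity)
    rw [Real.log_div (by positivity) hm0.ne'] at h2
    linarith
  have hl0 : 0 ≤ Real.log ((X + q) / r) := Real.log_nonneg ((one_le_div hr).2 (by linarith))
  have hKm : K * (2 * u / m) * 2 ≤ u / 8 := by
    rw [mul_div_assoc', div_mul_eq_mul_div, div_le_iff₀ hm0, hm]
    nlinarith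
  have hu8 : absorbConst K + 8 * L ≤ u := by rw [hu, le_div_iff₀ hr]; linarith
  rw [absorbConst] at hu8
  calc K * (X + q) * (1 + Real.log ((X + q) / r)) + L * q
      ≤ K * (2 * q) * (1 + (2 * u / m + Real.log m)) + L * q := by gcongr; linarith
    _ = q * (2 * K * (1 + Real.log m) + L + K * (2 * u / m) * 2) := by ring
    _ ≤ q * (u / 4) := by gcongr; linarith
    _ = _ := by rw [hu]; ring

/-- In the far range the quadratic cost absorbs the quadratic growth and the linear terms. -/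
theorem absorb_far {G r ρ X q nb nk nz nx : ℝ} (hG : 0 ≤ G) (hr : 0 < r) (hρ : 0 < ρ)
    (hq0 : 0 ≤ q) (hnb : 0 ≤ nb) (hnk : 0 ≤ nk)
    (htail : 4 * r * (G * (2 / ρ + 2) ^ 2 + (nb + nk) * (2 / ρ)) ≤ 1)
    (hz : nz ≤ X + q) (hz0 : 0 ≤ nz) (hx : nx ≤ q) (hρq : ρ ≤ 2 * q ∧ X ≤ q) :
    G * (1 + nz) ^ 2 + nb * nx + nk * q ≤ q ^ 2 / (4 * r) := by
  have h1 : 1 ≤ q * (2 / ρ) := by
    rw [← mul_div_assoc, le_div_iff₀ hρ]; linarith [hρq.1]
  have h2 : G * (1 + nz) ^ 2 ≤ G * (2 / ρ + 2) ^ 2 * q ^ 2 := by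
    calc G * (1 + nz) ^ 2 ≤ G * (q * (2 / ρ + 2)) ^ 2 := by gcongr; linarith [hρq.2]
      _ = _ := by ring
  have h3 : nb * nx + nk * q ≤ (nb + nk) * (2 / ρ) * q ^ 2 := by
    calc nb * nx + nk * q ≤ nb * q + nk * q := by gcongr
      _ = (nb + nk) * q * 1 := by ring
      _ ≤ (nb + nk) * q * (q * (2 / ρ)) := by gcongr
      _ = _ := by ring
  rw [le_div_iff₀ (by positivity)]
  calc (G * (1 + nz) ^ 2 + nb * nx + nk * q) * (4 * r)
      ≤ (G * (2 / ρ + 2) ^ 2 * q ^ 2 + (nb + nk) * (2 / ρ) * q ^ 2) * (4 * r) := by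
        gcongr ?_ * _; linarith
    _ = 4 * r * (G * (2 / ρ + 2) ^ 2 + (nb + nk) * (2 / ρ)) * q ^ 2 := by ring
    _ ≤ 1 * q ^ 2 := by gcongr
    _ = q ^ 2 := one_mul _

variable {fm f0 fp : F → ℝ} {Pm P0 Pp k a g0 b x : F} {s r ρ K G L X : ℝ}

/-- One side of the three-slice inequality. -/
theorem three_up (hK : 0 ≤ K) (hs : 0 < s) (hsr : s ≤ r) (hG : 0 ≤ G)
    (ha : LogSlope fm Pm a r ρ K) (h0 : LogSlope f0 P0 g0 r ρ K)
    (hb : LogSlope fp Pp b r ρ K) (hgr : QuadGrowth fp Pp G)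
    (hL : ‖b - k‖ ≤ L) (hX : r ≤ X) (hxX : ‖x‖ ≤ X)
    (hfit : 2 * X + r * (absorbConst K + 8 * L) ≤ ρ)
    (htail : 4 * r * (G * (2 / ρ + 2) ^ 2 + (‖b‖ + ‖k‖) * (2 / ρ)) ≤ 1)
    (hm : UpConvex fm f0 fp Pm P0 Pp k s x) :
    -(L ^ 2 * s) - 4 * (K * (2 * X + r * (absorbConst K + 8 * L)) *
        (1 + Real.log ((2 * X + r * (absorbConst K + 8 * L)) / r))) ≤
      fp Pp + fm Pm - 2 * f0 P0 + ⟪a + b - (2 : ℝ) • g0, x⟫ := by
  have hr : 0 < r := hs.trans_le hsr
  have hC := one_le_absorbConst hK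
  have hL0 : 0 ≤ L := (norm_nonneg _).trans hL
  set Q := X + r * (absorbConst K + 8 * L) with hQ
  set R0 := 2 * X + r * (absorbConst K + 8 * L) with hR0
  have hrC : 0 ≤ r * (absorbConst K + 8 * L) := by positivity
  have hXR : X ≤ R0 := by linarith
  have hρ : 0 < ρ := by linarith
  set Ev := K * R0 * (1 + Real.log (R0 / r))
  have hlog0 : 0 ≤ Real.log (R0 / r) := Real.log_nonneg ((one_le_div hr).2 (hX.trans hXR))
  have hEv : 0 ≤ Ev := mul_nonneg (mul_nonneg hK (by linarith)) (by linarith)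
  have hbound : ∀ q, fp (Pp + (x + q)) - ⟪k, q⟫ - ‖q‖ ^ 2 / (4 * s) ≤
      fp Pp + ⟪b, x⟫ + L ^ 2 * s + Ev := by
    intro q
    have hxq : ‖x + q‖ ≤ X + ‖q‖ := (norm_add_le _ _).trans (by linarith)
    have hcs : ⟪b - k, q⟫ ≤ L * ‖q‖ := (real_inner_le_norm _ _).trans (by gcongr)
    rw [inner_sub_left] at hcs
    have hsq : L * ‖q‖ ≤ L ^ 2 * s + ‖q‖ ^ 2 / (4 * s) := by
      have e : L ^ 2 * s + ‖q‖ ^ 2 / (4 * s) - L * ‖q‖ = (2 * s * L - ‖q‖) ^ 2 / (4 * s) := by
        field_simp; ring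
      have : 0 ≤ (2 * s * L - ‖q‖) ^ 2 / (4 * s) := by positivity
      linarith
    by_cases hq : ‖q‖ ≤ Q
    · have h := (abs_le.1 (hb R0 (x + q) (hX.trans hXR) hfit
        (hxq.trans (by linarith)))).2
      rw [inner_add_right] at h
      linarith
    · push Not at hq
      have hq0 : 0 < ‖q‖ := lt_of_le_of_lt (by linarith) hq
      have hqs : ‖q‖ ^ 2 / (4 * r) ≤ ‖q‖ ^ 2 / (4 * s) := by gcongr
      have hLs : 0 ≤ L ^ 2 * s := by positivity
      by_cases hz : X + ‖q‖ ≤ ρ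
      · have h := (abs_le.1 (hb (X + ‖q‖) (x + q) (by linarith) hz hxq)).2
        rw [inner_add_right] at h
        have herr := absorb_mid hK hr hL0 hX hq
        linarith
      · push Not at hz
        have h := (abs_le.1 (hgr (x + q))).2
        have herr := absorb_far hG hr hρ (by linarith) (norm_nonneg b) (norm_nonneg k) htail
          hxq (norm_nonneg (x + q)) (show ‖x‖ ≤ ‖q‖ by linarith) ⟨by linarith, by linarith⟩
        have hbx := (abs_le.1 (abs_real_inner_le_norm b x)).1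
        have hkq := (abs_le.1 (abs_real_inner_le_norm k q)).1
        linarith
  have h := hm _ hbound
  have h1 := (abs_le.1 (ha R0 x (hX.trans hXR) hfit (hxX.trans hXR))).2
  have h2 := (abs_le.1 (h0 R0 x (hX.trans hXR) hfit (hxX.trans hXR))).1
  simp only [inner_sub_left, inner_add_left, real_inner_smul_left]
  linarith

theorem LogSlope.mirror {f : F → ℝ} {P g : F} (h : LogSlope f P g r ρ K) :
    LogSlope (fun y => -f (-y)) (-P) g r ρ K := by
  intro R z h1 h2 h3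
  have := h R (-z) h1 h2 (by rwa [norm_neg])
  rw [inner_neg_right] at this
  simp only [neg_add_rev, neg_neg]
  rw [abs_le] at this ⊢
  rw [add_comm P] at this
  constructor <;> linarith

omit [InnerProductSpace ℝ F] in
theorem QuadGrowth.mirror {f : F → ℝ} {P : F} (h : QuadGrowth f P G) :
    QuadGrowth (fun y => -f (-y)) (-P) G := by
  intro z
  have := h (-z)
  rw [norm_neg, add_comm P] at this
  simp only [neg_add_rev, neg_neg]
  rw [abs_le] at this ⊢
  constructor <;> linarith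

theorem DownConcave.mirror (h : DownConcave fm f0 fp Pm P0 Pp k s x) :
    UpConvex (fun y => -fp (-y)) (fun y => -f0 (-y)) (fun y => -fm (-y)) (-Pp) (-P0) (-Pm)
      k s (-x) := by
  intro U hU
  have := h (-U) fun q => by
    have := hU (-q)
    simp only [neg_add_rev, neg_neg, inner_neg_right, norm_neg, add_comm _ Pm,
      add_comm q x] at this
    linarith
  simp only [neg_add_rev, neg_neg, add_comm x]
  linarith

/-- The three-slice inequality. -/
theorem three_slices (hK : 0 ≤ K) (hs : 0 < s) (hsr : s ≤ r) (hG : 0 ≤ G)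
    (ha : LogSlope fm Pm a r ρ K) (h0 : LogSlope f0 P0 g0 r ρ K)
    (hb : LogSlope fp Pp b r ρ K) (hgm : QuadGrowth fm Pm G) (hgp : QuadGrowth fp Pp G)
    (haL : ‖a - k‖ ≤ L) (hbL : ‖b - k‖ ≤ L) (hX : r ≤ X) (hxX : ‖x‖ ≤ X)
    (hfit : 2 * X + r * (absorbConst K + 8 * L) ≤ ρ)
    (htail : 4 * r * (G * (2 / ρ + 2) ^ 2 + (L + 2 * ‖k‖) * (2 / ρ)) ≤ 1)
    (hu : UpConvex fm f0 fp Pm P0 Pp k s x) (hd : DownConcave fm f0 fp Pm P0 Pp k s x) :
    |fp Pp + fm Pm - 2 * f0 P0 + ⟪a + b - (2 : ℝ) • g0, x⟫| ≤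
      L ^ 2 * s + 4 * (K * (2 * X + r * (absorbConst K + 8 * L)) *
        (1 + Real.log ((2 * X + r * (absorbConst K + 8 * L)) / r))) := by
  have hr : 0 < r := hs.trans_le hsr
  have hC := one_le_absorbConst hK
  have hL0 : 0 ≤ L := (norm_nonneg _).trans hbL
  have hρ : 0 < ρ := by nlinarith
  have tail : ∀ v : F, ‖v - k‖ ≤ L →
      4 * r * (G * (2 / ρ + 2) ^ 2 + (‖v‖ + ‖k‖) * (2 / ρ)) ≤ 1 := by
    intro v hv
    refine le_trans ?_ htail
    have : ‖v‖ + ‖k‖ ≤ L + 2 * ‖k‖ := by linarith [norm_le_norm_sub_add v k]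
    gcongr
  have h1 := three_up hK hs hsr hG ha h0 hb hgp hbL hX hxX hfit (tail b hbL) hu
  have h2 := three_up hK hs hsr hG hb.mirror h0.mirror ha.mirror hgm.mirror haL hX
    (by rwa [norm_neg]) hfit (tail a haL) hd.mirror
  simp only [neg_neg, inner_neg_right, add_comm b a] at h2
  exact abs_le.2 ⟨by linarith, by linarith⟩

/-- The second difference along the frame, `x = 0`. -/
theorem three_slices_center (hK : 0 ≤ K) (hs : 0 < s) (hsr : s ≤ r) (hG : 0 ≤ G)
    (ha : LogSlope fm Pm a r ρ K) (h0 : LogSlope f0 P0 g0 r ρ K)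
    (hb : LogSlope fp Pp b r ρ K) (hgm : QuadGrowth fm Pm G) (hgp : QuadGrowth fp Pp G)
    (haL : ‖a - k‖ ≤ L) (hbL : ‖b - k‖ ≤ L)
    (hfit : r * (2 + absorbConst K + 8 * L) ≤ ρ)
    (htail : 4 * r * (G * (2 / ρ + 2) ^ 2 + (L + 2 * ‖k‖) * (2 / ρ)) ≤ 1)
    (hu : UpConvex fm f0 fp Pm P0 Pp k s 0) (hd : DownConcave fm f0 fp Pm P0 Pp k s 0) :
    |fp Pp + fm Pm - 2 * f0 P0| ≤
      L ^ 2 * s + 4 * K * r * (2 + absorbConst K + 8 * L) *
        (1 + Real.log (2 + absorbConst K + 8 * L)) := by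
  have hr : 0 < r := hs.trans_le hsr
  have h := three_slices (x := 0) (X := r) hK hs hsr hG ha h0 hb hgm hgp haL hbL le_rfl
    (by simp [hr.le]) (by linarith) htail hu hd
  have e : (2 * r + r * (absorbConst K + 8 * L)) / r = 2 + absorbConst K + 8 * L := by
    field_simp; ring
  rw [inner_zero_right, add_zero, e] at h
  linarith

/-- The slopes of three slices are affine up to a logarithm. -/
theorem three_slices_slope (hK : 0 ≤ K) (hs : 0 < s) (hsr : s ≤ r) (hG : 0 ≤ G)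
    (ha : LogSlope fm Pm a r ρ K) (h0 : LogSlope f0 P0 g0 r ρ K)
    (hb : LogSlope fp Pp b r ρ K) (hgm : QuadGrowth fm Pm G) (hgp : QuadGrowth fp Pp G)
    (haL : ‖a - k‖ ≤ L) (hbL : ‖b - k‖ ≤ L)
    (hfit : r * (10 + absorbConst K) * (2 + L) ^ 2 ≤ ρ)
    (htail : 4 * r * (G * (2 / ρ + 2) ^ 2 + (L + 2 * ‖k‖) * (2 / ρ)) ≤ 1)
    (hu : ∀ x, ‖x‖ ≤ ρ → UpConvex fm f0 fp Pm P0 Pp k s x)
    (hd : ∀ x, ‖x‖ ≤ ρ → DownConcave fm f0 fp Pm P0 Pp k s x) :
    ‖a + b - (2 : ℝ) • g0‖ ≤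
      1 + 4 * K * (10 + absorbConst K) *
        (1 + Real.log (10 + absorbConst K) + 2 * Real.log (2 + L)) := by
  have hr : 0 < r := hs.trans_le hsr
  have hC := one_le_absorbConst hK
  have hL0 : 0 ≤ L := (norm_nonneg _).trans hbL
  set C := 10 + absorbConst K with hCdef
  set v := a + b - (2 : ℝ) • g0
  set ℓ := 1 + Real.log C + 2 * Real.log (2 + L)
  have hℓ : 0 ≤ ℓ := by
    have := Real.log_nonneg (show 1 ≤ C by linarith)
    have := Real.log_nonneg (show 1 ≤ 2 + L by linarith)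
    positivity
  rcases eq_or_ne v 0 with hv | hv
  · rw [hv, norm_zero]; positivity
  set X := (1 + L ^ 2) * r with hXd
  set R0 := 2 * X + r * (absorbConst K + 8 * L) with hR0
  have hR1 : R0 ≤ C * (1 + L ^ 2) * r := by
    have : 2 * (1 + L ^ 2) + absorbConst K + 8 * L ≤ C * (1 + L ^ 2) := by
      nlinarith [sq_nonneg (L - 1), sq_nonneg L]
    calc R0 = (2 * (1 + L ^ 2) + absorbConst K + 8 * L) * r := by rw [hR0, hXd]; ring
      _ ≤ _ := by gcongr
  have hR2 : R0 ≤ ρ := by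
    refine hR1.trans (le_trans ?_ hfit)
    calc C * (1 + L ^ 2) * r ≤ C * (2 + L) ^ 2 * r := by gcongr; linarith [add_sq 2 L]
      _ = r * C * (2 + L) ^ 2 := by ring
  have hr8 : 0 ≤ r * (absorbConst K + 8 * L) := by positivity
  have hX0 : 0 ≤ X := by positivity
  have hXρ : X ≤ ρ := by linarith
  set x := (X / ‖v‖) • v with hxd
  have hv' : ‖v‖ ≠ 0 := norm_ne_zero_iff.2 hv
  have hxn : ‖x‖ = X := by
    rw [hxd, norm_smul, Real.norm_eq_abs, abs_div, abs_norm, abs_of_nonneg hX0,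
      div_mul_cancel₀ _ hv']
  have hrX : r ≤ X := by rw [hXd]; nlinarith [sq_nonneg L]
  have h1 := abs_le.1 (three_slices (x := x) (X := X) hK hs hsr hG ha h0 hb hgm hgp haL hbL
    hrX hxn.le hR2 htail (hu x (hxn.le.trans hXρ)) (hd x (hxn.le.trans hXρ)))
  have hxn' : ‖-x‖ ≤ X := by rw [norm_neg, hxn]
  have h2 := abs_le.1 (three_slices (x := -x) (X := X) hK hs hsr hG ha h0 hb hgm hgp haL hbL
    hrX hxn' hR2 htail (hu _ (hxn'.trans hXρ)) (hd _ (hxn'.trans hXρ)))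
  have hvx : ⟪v, x⟫ = ‖v‖ * X := by
    rw [hxd, real_inner_smul_right, real_inner_self_eq_norm_mul_norm]; field_simp
  rw [inner_neg_right] at h2
  have hlog : 1 + Real.log (R0 / r) ≤ ℓ := by
    have hR0r : r ≤ R0 := by linarith
    have hle : R0 / r ≤ C * (2 + L) ^ 2 := by
      rw [div_le_iff₀ hr]
      refine hR1.trans ?_
      gcongr
      nlinarith
    have := Real.log_le_log (div_pos (by linarith) hr) hle
    rw [Real.log_mul (by positivity) (by positivity), Real.log_pow] at this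
    push_cast at this
    linarith
  have hE : K * R0 * (1 + Real.log (R0 / r)) ≤ K * (C * (1 + L ^ 2) * r) * ℓ := by
    have := Real.log_nonneg ((one_le_div hr).2 (show r ≤ R0 by linarith))
    gcongr
  have hLs : L ^ 2 * s ≤ X := by
    rw [hXd]; nlinarith [sq_nonneg L]
  have : ‖v‖ * X ≤ (1 + 4 * K * C * ℓ) * X := by
    rw [← hvx]
    have e : 4 * (K * (C * (1 + L ^ 2) * r) * ℓ) = 4 * K * C * ℓ * X := by rw [hXd]; ring
    linarith [h1.2, h2.1]
  exact le_of_mul_le_mul_right this (by positivity)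

end Vale.Agent.P080.C1
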